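/-
R335/CE/Mix: the class of admissible pairs, convexity
Skeleton by helper18 (block CE of row 335); keep the statements unchanged, add any helper lemmas
you like.
-/
import Crest.Agent.R335.Blocks
import Crest.Agent.R335.T.Cmp
import Crest.Agent.R335.T.Lsc

set_option autoImplicit false
set_option linter.unusedSectionVars false
set_option linter.unusedVariables false
set_option linter.unusedSimpArgs false

noncomputable section

namespace Crest.Agent.R335

open MeasureTheory Set Filter Topology Metric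
open scoped ENNReal

/-- Admissible pairs: `P` even, `b` odd, `P² + b² = R²`. -/
structure KP (R P b : X → ℝ) : Prop where
  hP : H1 eX P
  hb : H1 eX b
  ev : ∀ᵐ x : X, P (rf x) = P x
  od : ∀ᵐ x : X, b (rf x) = -b x
  sq : ∀ᵐ x : X, P x ^ 2 + b x ^ 2 = R x ^ 2

/-- The kinetic energy of a pair. -/
def En (P b : X → ℝ) : ℝ := (dir eX P P + dir eX b b) / 2

variable {R P b P' b' : X → ℝ}

theorem En_nonneg (P b : X → ℝ) : 0 ≤ En P b :=
  div_nonneg (add_nonneg (dir_self_nonneg P) (dir_self_nonneg b)) zero_le_two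

theorem sq_wnorm {κ : Type} (s : Finset κ) {w : κ → ℝ} (hw : ∀ k, 0 ≤ w k) (a : κ → ℝ) :
    √(∑ k ∈ s, w k * a k ^ 2) ^ 2 = ∑ k ∈ s, w k * a k ^ 2 :=
  Real.sq_sqrt (Finset.sum_nonneg fun k _ => mul_nonneg (hw k) (sq_nonneg _))

theorem memLp_wnorm {κ : Type} (s : Finset κ) {w : κ → ℝ} {F : κ → X → ℝ} (hw : ∀ k, 0 ≤ w k)
    (h : ∀ k, MemLp (F k) 2 volume) : MemLp (fun x => √(∑ k ∈ s, w k * F k x ^ 2)) 2 volume := by
  have hi : Integrable fun x => ∑ k ∈ s, w k * F k x ^ 2 :=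
    integrable_finsetSum _ fun k _ => (h k).integrable_sq.const_mul _
  rw [memLp_two_iff_integrable_sq (Real.continuous_sqrt.comp_aestronglyMeasurable hi.1)]
  simpa only [sq_wnorm s hw] using hi

/-- Recipe: `HL.norm` for the family `fun j : s => √(w j) * F j` (index type `↥s`,
`Finset.sum_coe_sort`); pointwise Cauchy-Schwarz `(∑ a_j g_j)² ≤ (∑ a_j²) ∑ g_j²`
(`Finset.sum_mul_sq_le_sq_mul_sq`) gives `dot N N ≤ ∑ w k * dot (F k) (F k)` a.e.; `HL.h1`. -/
theorem H1.wnorm {κ : Type} (s : Finset κ) {w : κ → ℝ} {F : κ → X → ℝ} (hw : ∀ k, 0 ≤ w k)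
    (h : ∀ k, H1 eX (F k)) : H1 eX (fun x => √(∑ k ∈ s, w k * F k x ^ 2)) ∧
      dir eX (fun x => √(∑ k ∈ s, w k * F k x ^ 2)) (fun x => √(∑ k ∈ s, w k * F k x ^ 2)) ≤
        ∑ k ∈ s, w k * dir eX (F k) (F k) := by
  classical
  let G : s → X → ℝ := fun j x => √(w j) * F j x
  have hG : ∀ j, HL eX (G j) := fun j => (h j).hl.const_mul _
  have e : (fun x => √(∑ j, G j x ^ 2)) = fun x => √(∑ k ∈ s, w k * F k x ^ 2) := by
    funext x
    rw [← Finset.sum_coe_sort s]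
    simp only [G, mul_pow, Real.sq_sqrt (hw _)]
  obtain ⟨h1, h2⟩ := HL.norm hG
  rw [← e]
  have hle : ∀ᵐ x : X, dot eX (fun x => √(∑ j, G j x ^ 2)) (fun x => √(∑ j, G j x ^ 2)) x ≤
      ∑ k ∈ s, w k * dot eX (F k) (F k) x := by
    filter_upwards [ae_all_iff.2 h2,
      ae_all_iff.2 fun j : s => ae_all_iff.2 fun i => (h j).hl.wd_const_mul (√(w j)) i] with x hx hy
    have e2 : ∑ k ∈ s, w k * dot eX (F k) (F k) x = ∑ i, ∑ j, wd (eX i) (G j) x ^ 2 := by
      rw [Finset.sum_comm, ← Finset.sum_coe_sort s]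
      refine Finset.sum_congr rfl fun j _ => ?_
      simp only [G, hy j, mul_pow, Real.sq_sqrt (hw _), dot, Finset.mul_sum, ← pow_two]
    rw [e2, dot]
    refine Finset.sum_le_sum fun i _ => ?_
    have h0 : 0 ≤ ∑ j, G j x ^ 2 := Finset.sum_nonneg fun _ _ => sq_nonneg _
    rw [hx i, ← sq, div_pow, Real.sq_sqrt h0]
    refine div_le_of_le_mul₀ h0 (Finset.sum_nonneg fun _ _ => sq_nonneg _) ?_
    rw [mul_comm]
    exact Finset.sum_mul_sq_le_sq_mul_sq _ _ _
  have hi : Integrable fun x => ∑ k ∈ s, w k * dot eX (F k) (F k) x :=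
    integrable_finsetSum _ fun k _ => ((h k).integrable_dot (h k)).const_mul _
  have hd : Integrable (dot eX (fun x => √(∑ j, G j x ^ 2)) fun x => √(∑ j, G j x ^ 2)) :=
    hi.mono' (measurable_dot _ _).aestronglyMeasurable (hle.mono fun x hx => by
      rwa [Real.norm_of_nonneg (dot_self_nonneg _ _)])
  refine ⟨h1.h1 ?_ hd, (integral_mono_ae hd hi hle).trans_eq ?_⟩
  · rw [e]
    exact memLp_wnorm s hw fun k => (h k).1
  · rw [integral_finsetSum _ fun k _ => ((h k).integrable_dot (h k)).const_mul _]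
    simp only [integral_const_mul, dir]

/-- Recipe: the integral of the square over the strip is `∑ w k * ∫ (F k)²`; take the minimum of
finitely many `t0` (or induction on `s` with `Strip.add`, `Strip.abs`, `Strip.mono`). -/
theorem Strip.wnorm {κ : Type} (s : Finset κ) {w : κ → ℝ} {F : κ → X → ℝ} (hw : ∀ k, 0 ≤ w k)
    (h : ∀ k, MemLp (F k) 2 volume) (hs : ∀ k, Strip (F k)) :
    Strip fun x => √(∑ k ∈ s, w k * F k x ^ 2) := by
  intro R ε hε
  have hS : 0 ≤ ∑ k ∈ s, w k := Finset.sum_nonneg fun k _ => hw k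
  choose t0 ht0 ht using fun k => hs k R (ε / (∑ k ∈ s, w k + 1)) (by positivity)
  obtain ⟨t1, h1, h2⟩ : ∃ t1 : ℝ, 0 < t1 ∧ ∀ k ∈ s, t1 ≤ t0 k := by
    obtain ⟨t1, h1, h2⟩ := (((eventually_all_finset s).2 fun k _ =>
      (ge_mem_nhds (ht0 k) : ∀ᶠ t in 𝓝 (0 : ℝ), t ≤ t0 k)).filter_mono
        (nhdsWithin_le_nhds (s := Ioi 0))).and self_mem_nhdsWithin |>.exists
    exact ⟨t1, h2, h1⟩
  refine ⟨t1, h1, fun t t2 t3 => ?_⟩
  simp only [sq_wnorm s hw]
  rw [integral_finsetSum _ fun k _ => ((h k).integrable_sq.const_mul _).integrableOn]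
  simp only [integral_const_mul]
  refine (Finset.sum_le_sum fun k hk =>
    mul_le_mul_of_nonneg_left (ht k t t2 (t3.trans (h2 k hk))) (hw k)).trans ?_
  rw [← Finset.sum_mul, ← mul_assoc]
  refine mul_le_mul_of_nonneg_right ?_ (sq_nonneg t)
  rw [mul_div_assoc', div_le_iff₀ (by positivity)]
  nlinarith

/-- Recipe: `H1.wnorm`, `Strip.wnorm` with `Strip.of_odd`, `H1.oddExt`, `H1.oddExt_even`
(the second root is even a.e.), `oddExt_rf`. -/
theorem KP.mix {κ : Type} (s : Finset κ) {w : κ → ℝ} {P b : κ → X → ℝ} (hw : ∀ k, 0 ≤ w k)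
    (h1 : ∑ k ∈ s, w k = 1) (h : ∀ k, KP R (P k) (b k)) :
    KP R (fun x => √(∑ k ∈ s, w k * P k x ^ 2)) (oddExt fun x => √(∑ k ∈ s, w k * b k x ^ 2)) ∧
      En (fun x => √(∑ k ∈ s, w k * P k x ^ 2)) (oddExt fun x => √(∑ k ∈ s, w k * b k x ^ 2)) ≤
        ∑ k ∈ s, w k * En (P k) (b k) := by
  classical
  obtain ⟨a1, a2⟩ := H1.wnorm s hw fun k => (h k).hP
  obtain ⟨b1, b2⟩ := H1.wnorm s hw fun k => (h k).hb
  have st := Strip.wnorm s hw (fun k => (h k).hb.1) fun k => Strip.of_odd (h k).hb.hl (h k).od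
  have ev : ∀ᵐ x : X, √(∑ k ∈ s, w k * b k (rf x) ^ 2) = √(∑ k ∈ s, w k * b k x ^ 2) := by
    filter_upwards [(eventually_all_finset s).2 fun k _ => (h k).od] with x hx
    rw [Finset.sum_congr rfl fun k hk => by rw [hx k hk, neg_sq]]
  obtain ⟨o1, o2⟩ := b1.oddExt_even st ev
  refine ⟨⟨a1, (b1.oddExt st).1, ?_, .of_forall (oddExt_rf _), ?_⟩, ?_⟩
  · filter_upwards [(eventually_all_finset s).2 fun k _ => (h k).ev] with x hx
    rw [Finset.sum_congr rfl fun k hk => by rw [hx k hk]]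
  · filter_upwards [(eventually_all_finset s).2 fun k _ => (h k).sq, o1] with x hx hy
    rw [hy, sq_wnorm s hw, sq_wnorm s hw, ← Finset.sum_add_distrib,
      Finset.sum_congr rfl fun k hk => by rw [← mul_add, hx k hk], ← Finset.sum_mul, h1, one_mul]
  · have : ∑ k ∈ s, w k * En (P k) (b k) = (∑ k ∈ s, w k * dir eX (P k) (P k) +
        ∑ k ∈ s, w k * dir eX (b k) (b k)) / 2 := by
      rw [← Finset.sum_add_distrib, Finset.sum_div]
      exact Finset.sum_congr rfl fun k _ => by rw [En]; ring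
    rw [this, En, o2]
    linarith

theorem ip_wnorm {κ : Type} (s : Finset κ) {w : κ → ℝ} {F : κ → X → ℝ} (hw : ∀ k, 0 ≤ w k)
    (h : ∀ k, MemLp (F k) 2 volume) :
    ip (fun x => √(∑ k ∈ s, w k * F k x ^ 2)) (fun x => √(∑ k ∈ s, w k * F k x ^ 2)) =
      ∑ k ∈ s, w k * ip (F k) (F k) := by
  simp only [ip, ← sq, sq_wnorm s hw]
  rw [integral_finsetSum _ fun k _ => (h k).integrable_sq.const_mul _]
  simp only [integral_const_mul]

/-- `KP.mix` and `ip_wnorm` with `κ = Bool` (or `Fin 2`). -/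
theorem KP.mix2 (h : KP R P b) (h' : KP R P' b') {t : ℝ} (h0 : 0 ≤ t) (h1 : t ≤ 1) :
    ∃ Q c, KP R Q c ∧ ip Q Q = t * ip P P + (1 - t) * ip P' P' ∧
      En Q c ≤ t * En P b + (1 - t) * En P' b' := by
  have hw : ∀ k : Bool, 0 ≤ cond k t (1 - t) := fun k => by cases k <;> simp [h0, h1]
  have hk : ∀ k : Bool, KP R (cond k P P') (cond k b b') := fun k => by cases k <;> assumption
  obtain ⟨a1, a2⟩ := KP.mix Finset.univ hw (by simp) hk
  refine ⟨_, _, a1, ?_, a2.trans_eq (by simp)⟩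
  rw [ip_wnorm _ hw fun k => (hk k).hP.1]
  simp

theorem KP.ip_add (h : KP R P b) : ip P P + ip b b = ip R R := by
  simp only [ip, ← pow_two]
  rw [← integral_add h.hP.1.integrable_sq h.hb.1.integrable_sq]
  exact integral_congr_ae h.sq

end Crest.Agent.R335
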