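/-
R335/CE/Close: pairs of almost minimal energy are close to (√2 g, u)
Skeleton by helper18 (block CE of row 335); keep the statements unchanged, add any helper lemmas
you like.
-/
import Crest.Agent.R335.CE.Mix

set_option autoImplicit false
set_option linter.unusedSectionVars false
set_option linter.unusedVariables false
set_option linter.unusedSimpArgs false

noncomputable section

namespace Crest.Agent.R335

open MeasureTheory Set Filter Topology Metric
open scoped ENNReal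

variable {c C D : ℝ} {g u : X → ℝ} {eg eu : ℝ}

theorem close_aux {P : X → ℝ} {e s ε κ : ℝ} (hg : H1 eX g) (hP : H1 eX P) (ng : ip g g = 1)
    (eq : ∀ φ, H1 eX φ → qf eX (V D) g φ = e * ip g φ) (he : e ≤ 0) (hs : 0 ≤ s)
    (nP : ip P P = s ^ 2) (h0 : 0 ≤ ip g P) (hE : qf eX (V D) P P ≤ s ^ 2 * e + ε)
    (hκ : s ^ 2 - ip g P ^ 2 ≤ κ) : ∫ x, (P x - s * g x) ^ 2 ≤ 2 * κ ∧
      dir eX (fun x => P x - s * g x) (fun x => P x - s * g x) ≤ 4 * ε + 128 * κ := by
  have e1 : (fun x => P x - s * g x) = fun x => -s * g x + 1 * P x := funext fun x => by ring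
  have c1 := ip_sq_le hg.1 hP.1
  rw [ng, nP, one_mul] at c1
  have c2 : ip g P ≤ s := abs_le_of_sq_le_sq' c1 hs |>.2
  have a1 := ip_lin hg.1 hP.1 (-s) 1
  have a2 := (pot_V D).qf_lin hg hP (-s) 1
  have a3 := V_coercive D (hP.sub (hg.const_mul s))
  rw [← e1] at a1 a2
  rw [eq g hg, eq P hP, ng] at a2
  rw [ng, nP] at a1
  have a4 : ip (fun x => P x - s * g x) (fun x => P x - s * g x) ≤ 2 * κ := by
    rw [a1]
    nlinarith [mul_nonneg h0 (sub_nonneg.2 c2)]
  refine ⟨by simpa only [ip, ← pow_two] using a4, ?_⟩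
  nlinarith [mul_nonneg (mul_nonneg hs (sub_nonneg.2 c2)) (neg_nonneg.2 he)]

/-- Recipe: `OB.gap` for `P` (`ip u P = 0`, `integral_odd`) and for `b` (`ip g b = 0`), `ip_sq_le`:
`c (2 - (ip g P)²) ≤ qf P P - 2 eg ≤ ε`, `c (1 - (ip u b)²) ≤ qf b b - eu ≤ ε`; `ip g P, ip u b ≥ 0`
(`u b ≥ 0` off the plane).  `ip_lin`: `∫ (P - √2 g)² = 4 - 2 √2 ip g P ≤ 2 (2 - (ip g P)²)`.
`Pot.qf_lin` with `eqg`: `qf w w = eg ip w w + qf P P - 2 eg ≤ ε`, `w = P - √2 g`; `V_coercive`. -/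
theorem OB.close (ob : OB c C D g u eg eu) {δ ε : ℝ} {P b R : X → ℝ} (h : Cert δ P b R)
    (hE : qf eX (V D) P P + qf eX (V D) b b ≤ 2 * eg + eu + ε) :
    ∫ x, (P x - √2 * g x) ^ 2 ≤ 132 * ε / c ∧ ∫ x, (b x - u x) ^ 2 ≤ 132 * ε / c ∧
      dir eX (fun x => P x - √2 * g x) (fun x => P x - √2 * g x) ≤ 132 * ε / c ∧
      dir eX (fun x => b x - u x) (fun x => b x - u x) ≤ 132 * ε / c := by
  have hc := ob.c_pos
  have hc1 := ob.c_le
  have o1 : ip u P = 0 := integral_odd (.of_forall fun x => by simp only [ob.u_odd, h.P_even, neg_mul])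
  have o2 : ip g b = 0 := integral_odd (.of_forall fun x => by simp only [ob.g_even, h.b_odd, mul_neg])
  have n1 : 0 ≤ ip g P := integral_nonneg fun x => mul_nonneg (ob.g_nn x) (h.P_nn x)
  have n2 : 0 ≤ ip u b := integral_nonneg_of_ae (ae_ne_plane.mono fun x hx => by
    rcases lt_or_gt_of_ne hx with h1 | h1
    · have h2 : 0 < rf x 2 := by rw [rf_two]; linarith
      have := mul_nonneg (ob.u_nn _ h2) (h.b_nn _ h2)
      rwa [ob.u_odd, h.b_odd, neg_mul_neg] at this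
    · exact mul_nonneg (ob.u_nn _ h1) (h.b_nn _ h1))
  have c1 := ip_sq_le ob.hg.1 h.hP.1
  have c2 := ip_sq_le ob.hu.1 h.hb.1
  have g1 := ob.gap P h.hP
  have g2 := ob.gap b h.hb
  rw [ob.ng, h.nP] at c1
  rw [ob.nu, h.nb] at c2
  rw [o1, h.nP] at g1
  rw [o2, h.nb] at g2
  have l := ob.lt
  have g3 : 2 * eg + c * (2 - ip g P ^ 2) ≤ qf eX (V D) P P := by nlinarith
  have g4 : eu + c * (1 - ip u b ^ 2) ≤ qf eX (V D) b b := by nlinarith
  have p1 : 0 ≤ c * (2 - ip g P ^ 2) := mul_nonneg hc.le (by linarith)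
  have p2 : 0 ≤ c * (1 - ip u b ^ 2) := mul_nonneg hc.le (by linarith)
  have hε : 0 ≤ ε := by linarith
  have s2 : √2 ^ 2 = 2 := Real.sq_sqrt zero_le_two
  obtain ⟨a1, a2⟩ := close_aux ob.hg h.hP ob.ng ob.eqg (by linarith [(abs_le.1 ob.eg_near).2])
    (Real.sqrt_nonneg 2) (h.nP.trans s2.symm) n1 (ε := ε) (κ := ε / c) (by rw [s2]; linarith)
    (by rw [s2, le_div_iff₀ hc]; linarith)
  obtain ⟨a3, a4⟩ := close_aux ob.hu h.hb ob.nu ob.equ (by linarith [(abs_le.1 ob.eu_near).2])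
    zero_le_one (h.nb.trans (one_pow 2).symm) n2 (ε := ε) (κ := ε / c) (by linarith)
    (by rw [one_pow, le_div_iff₀ hc]; linarith)
  simp only [one_mul] at a3 a4
  have k0 : 0 ≤ ε / c := by positivity
  have k1 : ε ≤ ε / c := by rw [le_div_iff₀ hc]; nlinarith
  rw [mul_div_assoc]
  exact ⟨by linarith, by linarith, by linarith, by linarith⟩

end Crest.Agent.R335
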