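/-
R335/CE/Delta: the multiplier is close to the gap
Skeleton by helper18 (block CE of row 335); keep the statements unchanged, add any helper lemmas
you like.
-/
import Crest.Agent.R335.CE.Mix

set_option autoImplicit false
set_option linter.unusedSectionVars false
set_option linter.unusedVariables false
set_option linter.unusedSimpArgs false

noncomputable section

namespace Crest.Agent.R335

open MeasureTheory Set Filter Topology Metric
open scoped ENNReal

variable {c C D : ℝ} {g u : X → ℝ} {eg eu : ℝ}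

theorem el_aux (hg : H1 eX g) (hu : H1 eX u) (eqg : ∀ φ, H1 eX φ → qf eX (V D) g φ = eg * ip g φ)
    (equ : ∀ φ, H1 eX φ → qf eX (V D) u φ = eu * ip u φ) {φ : X → ℝ} (hφ : Tst φ) :
    (∫ x, ∑ i, J g u i x * wd (eX i) φ x) + 2 * (eu - eg) * ∫ x, g x * u x * φ x = 0 := by
  have h1 := hu.hl.h1_mul_tst hφ
  have h2 := hg.hl.h1_mul_tst hφ
  have a1 := eqg _ h1
  have a2 := equ _ h2
  have e1 : ∫ x, ∑ i, J g u i x * wd (eX i) φ x =
      dir eX g (fun x => φ x * u x) - dir eX u fun x => φ x * g x := by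
    rw [dir, dir, ← integral_sub (hg.integrable_dot h1) (hu.integrable_dot h2)]
    refine integral_congr_ae ?_
    filter_upwards [ae_all_iff.2 (hu.hl.mul_contDiff hφ.1).2, ae_all_iff.2 (hg.hl.mul_contDiff hφ.1).2,
      ae_all_iff.2 fun i => wd_contDiff hφ.1 (eX i)] with x b1 b2 b3
    simp only [dot, ← Finset.sum_sub_distrib, b1, b2, b3, J]
    exact Finset.sum_congr rfl fun i _ => by ring
  have e2 : ip g (fun x => φ x * u x) = ∫ x, g x * u x * φ x :=
    integral_congr_ae (.of_forall fun x => by ring)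
  have e3 : ip u (fun x => φ x * g x) = ∫ x, g x * u x * φ x :=
    integral_congr_ae (.of_forall fun x => by ring)
  have e4 : ∫ x, V D x * g x * (φ x * u x) = ∫ x, V D x * u x * (φ x * g x) :=
    integral_congr_ae (.of_forall fun x => by ring)
  rw [qf, e2, e4] at a1
  rw [qf, e3] at a2
  linarith

/-- Recipe: `eqg` tested with `φ u`, `equ` tested with `φ g` (`H1.mul_contDiff`,
`HL.mul_contDiff`), subtract. -/
theorem OB.el (ob : OB c C D g u eg eu) {φ : X → ℝ} (hφ : Tst φ) :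
    (∫ x, ∑ i, J g u i x * wd (eX i) φ x) + 2 * (eu - eg) * ∫ x, g x * u x * φ x = 0 := by
  exact el_aux ob.hg ob.hu ob.eqg ob.equ hφ

theorem tp_lt_tm (hD : 0 < D) {x : X} (hx : 0 < x 2) : tp D x < tm D x := by
  refine lt_of_pow_lt_pow_left₀ 2 (norm_nonneg _) ?_
  have : inner ℝ x (nuc D) = D * x 2 := by simp [nuc, EuclideanSpace.inner_single_right]
  rw [tp, tm, norm_sub_sq_real, norm_add_sq_real, this]
  nlinarith [mul_pos hD hx]

/-- Recipe: `φ x = x 2 * (χ x + χ (rf x))` with `χ` from `exists_tst_one 1`; the integrand is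
nonnegative and positive a.e. on `Hs ∩ ball 0 1` (`g_lo`, `u_lo`, `tp < tm` on `Hs`). -/
theorem OB.exists_test (ob : OB c C D g u eg eu) : ∃ φ : X → ℝ, Tst φ ∧ (∀ x, φ (rf x) = -φ x) ∧
    0 < ∫ x, g x * u x * φ x := by
  have hφ : Tst fun x : X => x 2 * expNegInvGlue (1 - ‖x‖ ^ 2) :=
    ⟨(EuclideanSpace.proj (2 : Fin 3) : X →L[ℝ] ℝ).contDiff.mul
      (expNegInvGlue.contDiff.comp (contDiff_const.sub (contDiff_norm_sq ℝ))),
    HasCompactSupport.intro (isCompact_closedBall 0 1) fun x hx => by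
      rw [mem_closedBall_zero_iff, not_le] at hx
      rw [expNegInvGlue.zero_of_nonpos (by nlinarith), mul_zero]⟩
  refine ⟨_, hφ, fun x => by rw [rf_two, norm_rf, neg_mul], ?_⟩
  obtain ⟨M, hM⟩ := (LT.of_tst (b := eX) hφ).bdd
  have hi : Integrable fun x : X => g x * u x * (x 2 * expNegInvGlue (1 - ‖x‖ ^ 2)) :=
    ((apx_memLp_mul ob.hg.1 hφ.cont.aestronglyMeasurable hM).integrable_mul ob.hu.1).congr
      (.of_forall fun x => by simp only [Pi.mul_apply]; ring)
  rw [integral_pos_iff_support_of_nonneg_ae (ae_ne_plane.mono fun x hx => ?_) hi]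
  · have hO : IsOpen ({x : X | 0 < x 2} ∩ ball 0 1) :=
      (isOpen_lt continuous_const (by fun_prop)).inter isOpen_ball
    refine (hO.measure_pos volume ⟨EuclideanSpace.single 2 (1 / 2), by simp, by
      simp [abs_of_pos]; norm_num⟩).trans_le (measure_mono_ae ?_)
    filter_upwards [ob.g_lo, ob.u_lo] with x h1 h2 hx
    have hC : 0 < C⁻¹ := inv_pos.2 (by linarith [ob.C_ge])
    have h3 : 0 < x 2 := hx.1
    have h4 : ‖x‖ < 1 := mem_ball_zero_iff.1 hx.2
    have h5 := tp_lt_tm (D := D) (by linarith [ob.D_ge]) h3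
    have h6 : 0 < g x := lt_of_lt_of_le (by positivity) h1
    have h7 : 0 < u x := lt_of_lt_of_le
      (mul_pos hC (sub_pos.2 (Real.exp_lt_exp.2 (by linarith)))) (h2 h3)
    have h8 := expNegInvGlue.pos_of_pos (x := 1 - ‖x‖ ^ 2) (by nlinarith [norm_nonneg x])
    exact (mul_pos (mul_pos h6 h7) (mul_pos h3 h8)).ne'
  · have h1 : 0 ≤ u x * x 2 := by
      rcases lt_or_gt_of_ne hx with h1 | h1
      · have := ob.u_nn (rf x) (by rw [rf_two]; linarith)
        rw [ob.u_odd] at this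
        nlinarith
      · exact mul_nonneg (ob.u_nn _ h1) h1.le
    have := mul_nonneg (mul_nonneg (ob.g_nn x) h1) (expNegInvGlue.nonneg (1 - ‖x‖ ^ 2))
    exact this.trans_eq (by ring)

theorem abs_tri_le {a b ψ : X → ℝ} (ha : MemLp a 2 volume) (hb : MemLp b 2 volume) {L A B : ℝ}
    (hL : ∀ᵐ x : X, |ψ x| ≤ L) (hA : 0 ≤ A) (hB : 0 ≤ B) (h1 : ip a a ≤ A ^ 2)
    (h2 : ip b b ≤ B ^ 2) : |∫ x, a x * b x * ψ x| ≤ L * (A * B) := by
  have hL0 : 0 ≤ L := (abs_nonneg _).trans hL.exists.choose_spec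
  have c := ip_sq_le (f := fun x => |a x|) (g := fun x => |b x|) ha.abs hb.abs
  simp only [ip, abs_mul_abs_self] at c h1 h2
  have c2 : ∫ x, |a x| * |b x| ≤ A * B := (abs_le_of_sq_le_sq' (c.trans ((mul_le_mul h1 h2
    (integral_nonneg fun _ => mul_self_nonneg _) (sq_nonneg _)).trans_eq (by ring)))
      (mul_nonneg hA hB)).2
  rw [← Real.norm_eq_abs]
  refine (norm_integral_le_of_norm_le (g := fun x => L * (|a x| * |b x|))
    ((ha.abs.integrable_mul hb.abs).const_mul L) (hL.mono fun x hx => ?_)).trans ?_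
  · rw [Real.norm_eq_abs, abs_mul, abs_mul, mul_comm]
    exact mul_le_mul_of_nonneg_right hx (by positivity)
  · rw [integral_const_mul]
    exact mul_le_mul_of_nonneg_left c2 hL0

/-- `f h - f' h' = (f - f') h + f' (h - h')`, `ip_sq_le`. -/
theorem abs_tri_sub_le {f h f' h' ψ : X → ℝ} (hf : MemLp f 2 volume) (hh : MemLp h 2 volume)
    (hf' : MemLp f' 2 volume) (hh' : MemLp h' 2 volume) (hψ : AEStronglyMeasurable ψ volume)
    {L A ε : ℝ} (hL : ∀ᵐ x : X, |ψ x| ≤ L) (hA : 0 ≤ A) (hε : 0 ≤ ε) (h1 : ip h h ≤ A ^ 2)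
    (h2 : ip f' f' ≤ A ^ 2) (h3 : ∫ x, (f x - f' x) ^ 2 ≤ ε ^ 2) (h4 : ∫ x, (h x - h' x) ^ 2 ≤ ε ^ 2) :
    |(∫ x, f x * h x * ψ x) - ∫ x, f' x * h' x * ψ x| ≤ 2 * L * A * ε := by
  have i : ∀ {a b : X → ℝ}, MemLp a 2 volume → MemLp b 2 volume →
      Integrable fun x => a x * b x * ψ x := fun ha hb =>
    ((apx_memLp_mul ha hψ hL).integrable_mul hb).congr
      (.of_forall fun x => by simp only [Pi.mul_apply]; ring)
  have a1 := abs_tri_le (hf.sub hf') hh hL hε hA (by simpa only [ip, ← pow_two, Pi.sub_apply] using h3) h1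
  have a2 := abs_tri_le hf' (hh.sub hh') hL hA hε h2 (by simpa only [ip, ← pow_two, Pi.sub_apply] using h4)
  have e : (∫ x, f x * h x * ψ x) - ∫ x, f' x * h' x * ψ x =
      (∫ x, (f - f') x * h x * ψ x) + ∫ x, f' x * (h - h') x * ψ x := by
    rw [← integral_sub (i hf hh) (i hf' hh'), ← integral_add (i (hf.sub hf') hh) (i hf' (hh.sub hh'))]
    exact integral_congr_ae (.of_forall fun x => by simp only [Pi.sub_apply]; ring)
  rw [e]
  linarith [abs_add_le (∫ x, (f - f') x * h x * ψ x) (∫ x, f' x * (h - h') x * ψ x)]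

theorem H1.ip_wd_le {f : X → ℝ} (h : H1 eX f) (i : Fin 3) :
    ip (wd (eX i) f) (wd (eX i) f) ≤ dir eX f f := by
  rw [h.dir_eq_sum h]
  exact Finset.single_le_sum (f := fun i => ip (wd (eX i) f) (wd (eX i) f))
    (fun j _ => integral_nonneg fun _ => mul_self_nonneg _) (Finset.mem_univ i)

theorem H1.wd_sub_le {f f' : X → ℝ} (h : H1 eX f) (h' : H1 eX f') (i : Fin 3) :
    ∫ x, (wd (eX i) f x - wd (eX i) f' x) ^ 2 ≤
      dir eX (fun x => f x - f' x) fun x => f x - f' x :=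
  le_of_eq_of_le (integral_congr_ae ((h.hl.wd_sub h'.hl i).mono fun x hx => by
    simp only [hx, sq])) ((h.sub h').ip_wd_le i)

theorem integral_J {P b φ : X → ℝ} (hP : H1 eX P) (hb : H1 eX b) {L : ℝ}
    (hL : ∀ i, ∀ᵐ x : X, |wd (eX i) φ x| ≤ L) : ∫ x, ∑ i, J P b i x * wd (eX i) φ x =
      ∑ i, ((∫ x, wd (eX i) P x * b x * wd (eX i) φ x) - ∫ x, wd (eX i) b x * P x * wd (eX i) φ x) := by
  have i : ∀ (i : Fin 3) {a b : X → ℝ}, MemLp a 2 volume → MemLp b 2 volume →
      Integrable fun x => a x * b x * wd (eX i) φ x := fun i _ _ ha hb =>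
    ((apx_memLp_mul ha (measurable_wd _ _).aestronglyMeasurable (hL i)).integrable_mul hb).congr
      (.of_forall fun x => by simp only [Pi.mul_apply]; ring)
  have e : ∀ j x, J P b j x * wd (eX j) φ x =
      wd (eX j) P x * b x * wd (eX j) φ x - wd (eX j) b x * P x * wd (eX j) φ x := fun j x => by
    rw [J]
    ring
  simp only [e]
  exact (integral_finsetSum _ fun j _ => (i j (hP.2 j).2 hb.1).sub (i j (hb.2 j).2 hP.1)).trans
    (Finset.sum_congr rfl fun j _ => integral_sub (i j (hP.2 j).2 hb.1) (i j (hb.2 j).2 hP.1))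

/-- Recipe: `φ` from `OB.exists_test`, `T = ∫ J ∇φ`, `S = ∫ P b φ`, `T0`, `S0 > 0` the same for
`(√2 g, u)`; `Cert.el` and `OB.el` give `2 (δ - δ0) S0 = T0 - T - 2 δ (S - S0)`; `abs_tri_sub_le`
for each of the seven integrals. -/
theorem OB.delta (ob : OB c C D g u eg eu) (B : ℝ) {η3 : ℝ} (hη : 0 < η3) : ∃ ε : ℝ, 0 < ε ∧
    ∀ δ P b R, Cert δ P b R → |δ| ≤ B → ∫ x, (P x - √2 * g x) ^ 2 ≤ ε → ∫ x, (b x - u x) ^ 2 ≤ ε →
      dir eX (fun x => P x - √2 * g x) (fun x => P x - √2 * g x) ≤ ε →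
      dir eX (fun x => b x - u x) (fun x => b x - u x) ≤ ε → |δ - (eu - eg)| ≤ η3 := by
  obtain ⟨φ, hφ, ho, hS⟩ := ob.exists_test
  obtain ⟨L1, hL1⟩ := (LT.of_tst (b := eX) hφ).bdd
  choose L2 hL2 using fun i => (hφ.dcont (eX i)).bounded_above_of_compact_support (hφ.dsupp (eX i))
  set L := |L1| + ∑ i, |L2 i| + 1 with hL
  have hs0 : 0 ≤ ∑ i, |L2 i| := Finset.sum_nonneg fun _ _ => abs_nonneg _
  have L0 : 0 < L := by positivity
  have b1 : ∀ᵐ x : X, |φ x| ≤ L := hL1.mono fun x hx => by linarith [le_abs_self L1]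
  have b2 : ∀ i, ∀ᵐ x : X, |wd (eX i) φ x| ≤ L := fun i => (wd_contDiff hφ.1 (eX i)).mono fun x hx => by
    have := Finset.single_le_sum (fun j _ => abs_nonneg (L2 j)) (Finset.mem_univ i)
    have h2 : |fderiv ℝ φ x (eX i)| ≤ L2 i := hL2 i x
    simp only [hx]
    linarith [le_abs_self (L2 i), abs_nonneg L1]
  set G : X → ℝ := fun x => √2 * g x with hG
  have hG1 : H1 eX G := ob.hg.const_mul _
  have iG : ∀ ψ, ip G ψ = √2 * ip g ψ := fun ψ => by
    simp only [ip, hG, mul_assoc, integral_const_mul]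
  have el0 := el_aux hG1 ob.hu (D := D) (eg := eg) (fun ψ hψ => by
    rw [hG, qf_const_mul_left ob.hg, ob.eqg ψ hψ, ← hG, iG]; ring) ob.equ hφ
  have nG : ip G G = 2 := by
    have : ip g G = √2 := by
      have := ob.ng
      simp only [ip, hG, mul_left_comm (g _), integral_const_mul] at this ⊢
      rw [this, mul_one]
    rw [iG, this, Real.mul_self_sqrt zero_le_two]
  have hS0 : 0 < ∫ x, G x * u x * φ x := by
    simp only [hG, mul_assoc, integral_const_mul] at hS ⊢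
    positivity
  have d1 := dir_self_nonneg (b := eX) G
  have d2 := dir_self_nonneg (b := eX) u
  set A := √(2 + dir eX G G + dir eX u u)
  have A2 : A ^ 2 = 2 + dir eX G G + dir eX u u := Real.sq_sqrt (by linarith)
  have A0 : 0 < A := Real.sqrt_pos.2 (by linarith)
  set S0 := ∫ x, G x * u x * φ x with hS0'
  have hB := abs_nonneg B
  set e := 2 * S0 * η3 / ((12 + 4 * |B|) * L * A) with he
  have e0 : 0 < e := by positivity
  refine ⟨e ^ 2, by positivity, fun δ P b R ce hδ c1 c2 c3 c4 => ?_⟩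
  have el := ce.el φ hφ.h1 ⟨L, b1⟩ (.of_forall ho)
  have t1 := abs_tri_sub_le ce.hP.1 ce.hb.1 hG1.1 ob.hu.1 hφ.cont.aestronglyMeasurable b1 A0.le e0.le
    (by linarith [ce.nb]) (by linarith) c1 c2
  have t2 := fun i => abs_tri_sub_le (ce.hP.2 i).2 ce.hb.1 (hG1.2 i).2 ob.hu.1
    (measurable_wd _ _).aestronglyMeasurable (b2 i) A0.le e0.le (by linarith [ce.nb])
    (by linarith [hG1.ip_wd_le i]) ((ce.hP.wd_sub_le hG1 i).trans c3) c2
  have t3 := fun i => abs_tri_sub_le (ce.hb.2 i).2 ce.hP.1 (ob.hu.2 i).2 hG1.1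
    (measurable_wd _ _).aestronglyMeasurable (b2 i) A0.le e0.le (by linarith [ce.nP])
    (by linarith [ob.hu.ip_wd_le i]) ((ce.hb.wd_sub_le ob.hu i).trans c4) c1
  rw [integral_J ce.hP ce.hb b2] at el
  rw [integral_J hG1 ob.hu b2] at el0
  simp only [Fin.sum_univ_three] at el el0
  have t4 : |δ * ((∫ x, P x * b x * φ x) - S0)| ≤ |B| * (2 * L * A * e) :=
    (abs_mul _ _).trans_le (mul_le_mul (hδ.trans (le_abs_self B)) t1 (abs_nonneg _) hB)
  have he2 : (12 + 4 * |B|) * L * A * e = 2 * S0 * η3 := by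
    rw [he]
    field_simp
  have u0 := abs_le.1 (t2 0)
  have u1 := abs_le.1 (t2 1)
  have u2 := abs_le.1 (t2 2)
  have v0 := abs_le.1 (t3 0)
  have v1 := abs_le.1 (t3 1)
  have v2 := abs_le.1 (t3 2)
  have w := abs_le.1 t4
  refine abs_le.2 ⟨le_of_mul_le_mul_left ?_ hS0, le_of_mul_le_mul_left ?_ hS0⟩ <;> linarith

end Crest.Agent.R335
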