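/-
R335/CE/Exist: the minimiser under the mass constraint
Skeleton by helper18 (block CE of row 335); keep the statements unchanged, add any helper lemmas
you like.
-/
import Crest.Agent.R335.CE.Mix

set_option autoImplicit false
set_option linter.unusedSectionVars false
set_option linter.unusedVariables false
set_option linter.unusedSimpArgs false

noncomputable section

namespace Crest.Agent.R335

open MeasureTheory Set Filter Topology Metric
open scoped ENNReal

variable {R : X → ℝ}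

/-- Dominated convergence. -/
theorem L2to_of_dominated {F : ℕ → X → ℝ} {f : X → ℝ} (hR : MemLp R 2 volume)
    (hF : ∀ n, AEStronglyMeasurable (F n) volume) (hd : ∀ n, ∀ᵐ x : X, F n x ^ 2 ≤ R x ^ 2)
    (h : ∀ᵐ x : X, Tendsto (fun n => F n x) atTop (𝓝 (f x))) : MemLp f 2 volume ∧ L2to F f := by
  have hm : AEStronglyMeasurable f volume := aestronglyMeasurable_of_tendsto_ae atTop hF h
  have hf : ∀ᵐ x : X, f x ^ 2 ≤ R x ^ 2 := by
    filter_upwards [ae_all_iff.2 hd, h] with x h1 h2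
    exact le_of_tendsto' (h2.pow 2) h1
  refine ⟨hR.of_le hm (hf.mono fun x hx => by simpa using sq_le_sq.1 hx), ?_⟩
  have := tendsto_integral_of_dominated_convergence (F := fun n x => (F n x - f x) ^ 2)
    (f := fun _ => 0) (fun x => 4 * R x ^ 2) (fun n => ((hF n).sub hm).pow 2)
    (hR.integrable_sq.const_mul 4) (fun n => by
      filter_upwards [hd n, hf] with x h1 h2
      rw [Real.norm_of_nonneg (sq_nonneg _)]
      nlinarith [sq_nonneg (F n x + f x)])
    (h.mono fun x hx => by simpa using (hx.sub_const (f x)).pow 2)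
  simpa [L2to] using this

/-- Recipe: `m` = infimum of `En` over `KP R P b`, `ip P P = a` (`En_nonneg`); pairs `(P n, b n)`
with `En ≤ m + 1/(n+1)`.  `exists_convex_L2to` (`κ = Unit`) for `P n ^ 2` (`≤ M |R|`, so `ip ≤ M² ip R R`),
`exists_subseq_ae`: `S n = ∑ w P²` tends to `f` a.e. along `ns`.  `KP.mix`, `ip_wnorm`: the pairs
`(√(S n), oddExt √(∑ w b²))` are in `KP`, have mass `a` and `En ≤ m + 1/(n+1)`; `∑ w b² = R² - S n`
a.e.  Limits: `P0 = √f` and `b0 = oddExt √(R0² - f)`, `R0` a measurable version of `R`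
(a.e. convergence at `x` and at `rf x`, `sym_rf.ae`); `L2to_of_dominated`, `H1.lsc2`, `tendsto_ip`.
Evenness, oddness and `sq` pass to the a.e. limit.  Finally replace `P0` by
`(P0 x + P0 (rf x)) / 2` (`H1.congr`, `dir_congr`; `rf` is measurable: `sym_rf.mp.measurable`). -/
theorem KP.exists_min (hR : MemLp R 2 volume) {M : ℝ} (hM : ∀ᵐ x : X, |R x| ≤ M) {a : ℝ}
    (hne : ∃ P b, KP R P b ∧ ip P P = a) :
    ∃ P b, KP R P b ∧ Measurable P ∧ Measurable b ∧ (∀ x, P (rf x) = P x) ∧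
      (∀ x, b (rf x) = -b x) ∧ (∀ x, 0 ≤ P x) ∧ (∀ x : X, 0 < x 2 → 0 ≤ b x) ∧ ip P P = a ∧
      ∀ P' b', KP R P' b' → ip P' P' = a → En P b ≤ En P' b' := by
  classical
  set S : Set ℝ := {e | ∃ P b, KP R P b ∧ ip P P = a ∧ En P b = e} with hS
  have hSne : S.Nonempty := by
    obtain ⟨P, b, h1, h2⟩ := hne
    exact ⟨_, P, b, h1, h2, rfl⟩
  have hSb : BddBelow S := ⟨0, by rintro _ ⟨P, b, -, -, rfl⟩; exact En_nonneg P b⟩
  have hseq : ∀ n : ℕ, ∃ P b, KP R P b ∧ ip P P = a ∧ En P b ≤ sInf S + 1 / (n + 1) := fun n => by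
    obtain ⟨_, ⟨P, b, h1, h2, rfl⟩, h3⟩ := exists_lt_of_csInf_lt hSne
      (lt_add_of_pos_right (sInf S) (Nat.one_div_pos_of_nat (n := n)))
    exact ⟨P, b, h1, h2, h3.le⟩
  choose P b hK ha hE using hseq
  have hb2 : ∀ n, ∀ᵐ x : X, |P n x ^ 2| ≤ M * |R x| := fun n => by
    filter_upwards [(hK n).sq, hM] with x h1 h2
    rw [abs_of_nonneg (sq_nonneg _)]
    nlinarith [sq_nonneg (b n x), sq_abs (R x), abs_nonneg (R x)]
  have hm2 : ∀ n, MemLp (fun x => P n x ^ 2) 2 volume := fun n =>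
    hR.of_le_mul (c := M) ((hK n).hP.1.1.pow 2) (hb2 n)
  obtain ⟨s, w, f, hs, hw, hw1, hf⟩ := exists_convex_L2to (κ := Unit)
    (F := fun _ n x => P n x ^ 2) (fun _ => hm2) (C := M ^ 2 * ip R R) fun _ n => by
      rw [ip, ip, ← integral_const_mul]
      refine integral_mono_ae ((hm2 n).integrable_mul (hm2 n)) ((hR.integrable_mul hR).const_mul _)
        ((hb2 n).mono fun x hx => ?_)
      have := mul_self_le_mul_self (abs_nonneg _) hx
      rw [abs_mul_abs_self] at this
      refine this.trans_eq ?_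
      change _ = M ^ 2 * (R x * R x)
      rw [← abs_mul_abs_self (R x)]
      ring
  obtain ⟨fm, f2, fl⟩ := hf ()
  obtain ⟨ns, hns, hl⟩ := exists_subseq_ae (κ := Unit)
    (F := fun _ n x => ∑ k ∈ s n, w n k * P k x ^ 2) (f := f)
    (fun _ n => memLp_finsetSum _ fun k _ => (hm2 k).const_mul _) (fun _ => f2) fun _ => fl
  choose hK' hE' using fun n => KP.mix (s (ns n)) (hw (ns n)) (hw1 (ns n)) hK
  set Q : ℕ → X → ℝ := fun n x => √(∑ k ∈ s (ns n), w (ns n) k * P k x ^ 2) with hQ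
  set r : ℕ → X → ℝ := fun n x => √(∑ k ∈ s (ns n), w (ns n) k * b k x ^ 2) with hr
  set R0 := hR.1.mk R with hR0
  set r0 : X → ℝ := fun x => √(R0 x ^ 2 - f () x) with hr0
  have r0m : Measurable r0 := ((hR.1.stronglyMeasurable_mk.measurable.pow_const 2).sub fm).sqrt
  have l1 : ∀ᵐ x : X, Tendsto (fun n => Q n x) atTop (𝓝 √(f () x)) :=
    hl.mono fun x hx => (hx ()).sqrt
  have l2 : ∀ᵐ x : X, Tendsto (fun n => r n x) atTop (𝓝 (r0 x)) := by
    filter_upwards [hl, ae_all_iff.2 fun k => (hK k).sq, hR.1.ae_eq_mk] with x h1 h2 h3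
    refine ((h1 ()).const_sub (R0 x ^ 2)).sqrt.congr fun n => ?_
    rw [hr, hR0, ← h3, ← one_mul (R x ^ 2), ← hw1 (ns n), Finset.sum_mul, ← Finset.sum_sub_distrib]
    exact congrArg _ (Finset.sum_congr rfl fun k _ => by rw [← h2 k]; ring)
  have l3 : ∀ᵐ x : X, Tendsto (fun n => oddExt (r n) x) atTop (𝓝 (oddExt r0 x)) := by
    filter_upwards [l2, sym_rf.ae l2] with x h1 h2
    refine Tendsto.sub ?_ ?_
    · by_cases h : x ∈ Hs <;> simp [h, h1]
    · by_cases h : rf x ∈ Hs <;> simp [h, h2]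
  obtain ⟨m1, t1⟩ := L2to_of_dominated hR (fun n => (hK' n).hP.1.1)
    (fun n => (hK' n).sq.mono fun x hx => (le_add_of_nonneg_right (sq_nonneg _)).trans_eq hx) l1
  obtain ⟨m2, t2⟩ := L2to_of_dominated hR (fun n => (hK' n).hb.1.1)
    (fun n => (hK' n).sq.mono fun x hx => (le_add_of_nonneg_left (sq_nonneg _)).trans_eq hx) l3
  obtain ⟨k1, k2, k3⟩ := H1.lsc2 (fun n => (hK' n).hP) (fun n => (hK' n).hb) m1 m2 t1 t2
    (a := 2 * sInf S) fun ε hε => by
      filter_upwards [tendsto_one_div_add_atTop_nhds_zero_nat.eventually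
        (ge_mem_nhds (half_pos hε))] with n hn
      have h1 : ∑ k ∈ s (ns n), w (ns n) k * En (P k) (b k) ≤
          ∑ k ∈ s (ns n), w (ns n) k * (sInf S + ε / 2) := Finset.sum_le_sum fun k hk => by
        refine mul_le_mul_of_nonneg_left ((hE k).trans (add_le_add_right (le_trans ?_ hn) _)) (hw _ _)
        exact Nat.one_div_le_one_div ((hns.id_le n).trans (hs _ k hk))
      rw [← Finset.sum_mul, hw1, one_mul] at h1
      have h2 := (hE' n).trans h1
      rw [En] at h2
      linarith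
  have ev : ∀ᵐ x : X, √(f () (rf x)) = √(f () x) := by
    filter_upwards [l1, sym_rf.ae l1, ae_all_iff.2 fun n => (hK' n).ev] with x h1 h2 h3
    exact tendsto_nhds_unique h2 (h1.congr fun n => (h3 n).symm)
  have e : (fun x => √(f () x)) =ᵐ[volume] fun x => (√(f () x) + √(f () (rf x))) / 2 :=
    ev.mono fun x hx => by simp only [hx]; ring
  have rm := sym_rf.mp.measurable
  have hev : ∀ x, (√(f () (rf x)) + √(f () (rf (rf x)))) / 2 = (√(f () x) + √(f () (rf x))) / 2 :=
    fun x => by rw [rf_rf, add_comm]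
  refine ⟨fun x => (√(f () x) + √(f () (rf x))) / 2, oddExt r0,
    ⟨k1.congr e, k2, .of_forall hev, .of_forall (oddExt_rf _), ?_⟩,
    (fm.sqrt.add (fm.comp rm).sqrt).div_const _,
    (r0m.indicator measurableSet_Hs).sub ((r0m.indicator measurableSet_Hs).comp rm), hev,
    oddExt_rf _, fun x => by positivity, fun x hx => ?_, ?_, fun P' b' h1 h2 => ?_⟩
  · filter_upwards [l1, l3, e, ae_all_iff.2 fun n => (hK' n).sq] with x h1 h2 h3 h4
    rw [← h3]
    exact tendsto_nhds_unique ((h1.pow 2).add (h2.pow 2)) (tendsto_const_nhds.congr fun n => (h4 n).symm)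
  · rw [oddExt_of_pos _ hx]
    exact Real.sqrt_nonneg _
  · have h1 := tendsto_ip (fun n => (hK' n).hP.1) (fun n => (hK' n).hP.1) m1 m1 t1 t1
    have h2 : ∀ n, a = ip (Q n) (Q n) := fun n => by
      rw [hQ, ip_wnorm _ (hw _) fun k => (hK k).hP.1]
      simp only [ha, ← Finset.sum_mul, hw1, one_mul]
    rw [← tendsto_nhds_unique h1 (tendsto_const_nhds.congr h2)]
    exact integral_congr_ae (e.mono fun x hx => by simp only [← hx])
  · have h3 := csInf_le hSb ⟨P', b', h1, h2, rfl⟩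
    rw [En, ← dir_congr e e]
    linarith

end Crest.Agent.R335
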