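/-
R335/CE/Rot: rotations and the Euler-Lagrange equation
Skeleton by helper18 (block CE of row 335); keep the statements unchanged, add any helper lemmas
you like.
-/
import Crest.Agent.R335.CE.Mix

set_option autoImplicit false
set_option linter.unusedSectionVars false
set_option linter.unusedVariables false
set_option linter.unusedSimpArgs false

noncomputable section

namespace Crest.Agent.R335

open MeasureTheory Set Filter Topology Metric
open scoped ENNReal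

variable {R P b φ : X → ℝ}

theorem KP.bdd (h : KP R P b) {M : ℝ} (hM : ∀ᵐ x : X, |R x| ≤ M) :
    (∀ᵐ x : X, |P x| ≤ M) ∧ ∀ᵐ x : X, |b x| ≤ M := by
  constructor <;> filter_upwards [h.sq, hM] with x h1 h2
  · exact (sq_le_sq.1 (by nlinarith [sq_nonneg (b x)])).trans h2
  · exact (sq_le_sq.1 (by nlinarith [sq_nonneg (P x)])).trans h2

theorem rot_mul {f : X → ℝ} (hf : H1 eX f) {M k L : ℝ} (hM : ∀ᵐ x : X, |f x| ≤ M) (hφ : H1 eX φ)
    (hk : ∀ᵐ x : X, |φ x| ≤ k) {Φ Φ' : ℝ → ℝ} (hΦ : ContDiff ℝ 1 Φ)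
    (hd : ∀ y, HasDerivAt Φ (Φ' y) y) (h1 : ∀ y, |Φ y| ≤ 1) (h2 : ∀ y, |Φ' y| ≤ L) :
    H1 eX (fun x => f x * Φ (φ x)) ∧ ∀ i, wd (eX i) (fun x => f x * Φ (φ x)) =ᵐ[volume]
      fun x => wd (eX i) f x * Φ (φ x) + f x * (Φ' (φ x) * wd (eX i) φ x) := by
  obtain ⟨a1, a2⟩ := (hφ.lh hk).comp hΦ
  simp only [fun y => (hd y).deriv] at a2
  refine ⟨hf.mul_bdd (M := max M 1) (hM.mono fun x hx => hx.trans (le_max_left _ _)) a1.1
    (.of_forall fun x => (h1 _).trans (le_max_right _ _)) ?_, fun i => ?_⟩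
  · refine ((hφ.integrable_dot hφ).const_mul (L ^ 2)).mono' (measurable_dot _ _).aestronglyMeasurable ?_
    filter_upwards [ae_all_iff.2 a2] with x hx
    rw [Real.norm_of_nonneg (dot_self_nonneg _ _)]
    simp only [dot, hx, Finset.mul_sum]
    refine Finset.sum_le_sum fun i _ => ?_
    have := mul_le_mul_of_nonneg_right (sq_le_sq' (abs_le.1 (h2 (φ x))).1 (abs_le.1 (h2 (φ x))).2)
      (sq_nonneg (wd (eX i) φ x))
    linarith
  · filter_upwards [(hf.lh hM).wd_mul a1 i, a2 i] with x h3 h4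
    rw [h3, h4]

theorem abs_sin_sub_le_sq (y : ℝ) : |Real.sin y - y| ≤ 2 * y ^ 2 := by
  wlog h : 0 ≤ y generalizing y
  · have := this (-y) (by linarith)
    rwa [Real.sin_neg, neg_sub_neg, abs_sub_comm, neg_sq] at this
  rw [abs_sub_comm, abs_of_nonneg (sub_nonneg.2 (Real.sin_le h))]
  rcases le_total y 1 with h1 | h1
  · nlinarith [Real.sin_ge_sub_cube h, sq_nonneg y]
  · nlinarith [Real.neg_one_le_sin y]

theorem rot_mass (p q y : ℝ) : |(p * Real.cos y + q * Real.sin y) ^ 2 - p ^ 2 - 2 * y * (p * q)| ≤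
    5 * y ^ 2 * (p ^ 2 + q ^ 2) := by
  have e : (p * Real.cos y + q * Real.sin y) ^ 2 - p ^ 2 - 2 * y * (p * q) =
      Real.sin y ^ 2 * (q ^ 2 - p ^ 2) + (Real.sin (2 * y) - 2 * y) * (p * q) := by
    rw [Real.sin_two_mul]
    linear_combination p ^ 2 * Real.sin_sq_add_cos_sq y
  have h1 : |q ^ 2 - p ^ 2| ≤ p ^ 2 + q ^ 2 := abs_le.2 ⟨by nlinarith, by nlinarith⟩
  have h2 : |p * q| ≤ (p ^ 2 + q ^ 2) / 2 :=
    abs_le.2 ⟨by nlinarith [sq_nonneg (p + q)], by nlinarith [sq_nonneg (p - q)]⟩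
  rw [e]
  refine (abs_add_le _ _).trans ?_
  rw [abs_mul, abs_mul _ (p * q), abs_of_nonneg (sq_nonneg _)]
  have h3 := mul_le_mul Real.sin_sq_le_sq h1 (abs_nonneg _) (sq_nonneg y)
  have h4 := mul_le_mul (abs_sin_sub_le_sq (2 * y)) h2 (abs_nonneg _) (by positivity)
  linarith

/-- Recipe: `Q = cos (tφ) P + sin (tφ) b`, `c = -sin (tφ) P + cos (tφ) b`.  `cos (tφ)`, `sin (tφ)`
are `LH` (`LH.comp`, `H1.lh`) with square integrable gradient; `H1.mul_bdd` (`|P|, |b| ≤ |R| ≤ M`),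
`LH.wd_mul`, `HL.wd_add`.  Pointwise `∑ (∂Q)² + (∂c)² = ∑ (∂P)² + (∂b)² + 2 t J ∂φ + t² R² (∂φ)²`.
Mass: `Q² - P² - 2θ P b = sin²θ (b² - P²) + (sin 2θ - 2θ) P b`, `θ = tφ`, `|sin y - y| ≤ 2 y²`. -/
theorem KP.rot (h : KP R P b) {M k : ℝ} (hM : ∀ᵐ x : X, |R x| ≤ M) (hφ : H1 eX φ)
    (hk : ∀ᵐ x : X, |φ x| ≤ k) (ho : ∀ᵐ x : X, φ (rf x) = -φ x) : ∃ C : ℝ, ∀ t : ℝ,
    ∃ Q c, KP R Q c ∧
      En Q c ≤ En P b + t * (∫ x, ∑ i, J P b i x * wd (eX i) φ x) + C * t ^ 2 ∧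
      |ip Q Q - ip P P - 2 * t * ∫ x, P x * b x * φ x| ≤ C * t ^ 2 := by
  obtain ⟨hP, hb⟩ := h.bdd hM
  have hR2 : Integrable fun x => R x ^ 2 :=
    (h.hP.1.integrable_sq.add h.hb.1.integrable_sq).congr h.sq
  have hJ : Integrable fun x => ∑ i, J P b i x * wd (eX i) φ x :=
    integrable_finsetSum _ fun i _ => (((apx_memLp_mul (h.hP.2 i).2 h.hb.1.1 hb).sub
      (apx_memLp_mul (h.hb.2 i).2 h.hP.1.1 hP)).integrable_mul (hφ.2 i).2)
  have hS : Integrable fun x => P x * b x * φ x :=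
    ((apx_memLp_mul h.hP.1 hφ.1.1 hk).integrable_mul h.hb.1).congr
      (.of_forall fun x => by simp only [Pi.mul_apply]; ring)
  have hd0 := dir_self_nonneg (b := eX) φ
  have hR0 : 0 ≤ ∫ x, R x ^ 2 := integral_nonneg fun _ => sq_nonneg _
  refine ⟨M ^ 2 * dir eX φ φ / 2 + 5 * k ^ 2 * ∫ x, R x ^ 2, fun t => ?_⟩
  have dc : ∀ y, HasDerivAt (fun y => Real.cos (t * y)) (-Real.sin (t * y) * t) y := fun y => by
    simpa using ((hasDerivAt_id y).const_mul t).cos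
  have ds : ∀ y, HasDerivAt (fun y => Real.sin (t * y)) (Real.cos (t * y) * t) y := fun y => by
    simpa using ((hasDerivAt_id y).const_mul t).sin
  have c1 := fun (f : X → ℝ) (hf : H1 eX f) (hf' : ∀ᵐ x : X, |f x| ≤ M) => rot_mul hf hf' hφ hk
    (by fun_prop) dc (fun y => Real.abs_cos_le_one _) (L := |t|) fun y => by
      rw [abs_mul, abs_neg]
      exact mul_le_of_le_one_left (abs_nonneg _) (Real.abs_sin_le_one _)
  have s1 := fun (f : X → ℝ) (hf : H1 eX f) (hf' : ∀ᵐ x : X, |f x| ≤ M) => rot_mul hf hf' hφ hk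
    (by fun_prop) ds (fun y => Real.abs_sin_le_one _) (L := |t|) fun y => by
      rw [abs_mul]
      exact mul_le_of_le_one_left (abs_nonneg _) (Real.abs_cos_le_one _)
  obtain ⟨a1, a2⟩ := c1 P h.hP hP
  obtain ⟨a3, a4⟩ := c1 b h.hb hb
  obtain ⟨a5, a6⟩ := s1 P h.hP hP
  obtain ⟨a7, a8⟩ := s1 b h.hb hb
  have hQ := a1.add a7
  have hc := a3.sub a5
  refine ⟨_, _, ⟨hQ, hc, ?_, ?_, ?_⟩, ?_, ?_⟩
  · filter_upwards [h.ev, h.od, ho] with x h1 h2 h3
    simp [h1, h2, h3]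
  · filter_upwards [h.ev, h.od, ho] with x h1 h2 h3
    simp only [h1, h2, h3, mul_neg, Real.cos_neg, Real.sin_neg]
    ring
  · filter_upwards [h.sq] with x h1
    linear_combination h1 + (P x ^ 2 + b x ^ 2) * Real.sin_sq_add_cos_sq (t * φ x)
  · have i1 := (h.hP.integrable_dot h.hP).add (h.hb.integrable_dot h.hb)
    have i2 := (hJ.const_mul (2 * t)).add ((hφ.integrable_dot hφ).const_mul (t ^ 2 * M ^ 2))
    have key := integral_mono_ae ((hQ.integrable_dot hQ).add (hc.integrable_dot hc)) (i1.add i2) (by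
      filter_upwards [ae_all_iff.2 a2, ae_all_iff.2 a4, ae_all_iff.2 a6, ae_all_iff.2 a8,
        ae_all_iff.2 fun i => a1.hl.wd_add a7.hl i, ae_all_iff.2 fun i => a3.hl.wd_sub a5.hl i,
        h.sq, hM] with x h1 h2 h3 h4 h5 h6 h7 h8
      simp only [Pi.add_apply, dot, Finset.mul_sum, ← Finset.sum_add_distrib]
      refine Finset.sum_le_sum fun i _ => ?_
      rw [h5, h6, h1, h2, h3, h4, J]
      have h9 : R x ^ 2 ≤ M ^ 2 := sq_le_sq' (abs_le.1 h8).1 (abs_le.1 h8).2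
      have h10 := mul_le_mul_of_nonneg_left h9 (sq_nonneg (t * wd (eX i) φ x))
      rw [← h7] at h10
      have h11 := Real.sin_sq_add_cos_sq (t * φ x)
      refine le_of_sub_nonneg (le_of_le_of_eq (sub_nonneg.2 h10) ?_)
      linear_combination (((wd (eX i) P x) ^ 2 + (wd (eX i) b x) ^ 2 +
        2 * t * (b x * wd (eX i) P x - P x * wd (eX i) b x) * wd (eX i) φ x +
        (t * wd (eX i) φ x) ^ 2 * (P x ^ 2 + b x ^ 2))) * h11)
    rw [integral_add' (hQ.integrable_dot hQ) (hc.integrable_dot hc), integral_add' i1 i2,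
      integral_add' (h.hP.integrable_dot h.hP) (h.hb.integrable_dot h.hb),
      integral_add' (hJ.const_mul _) ((hφ.integrable_dot hφ).const_mul _), integral_const_mul,
      integral_const_mul] at key
    simp only [En, dir] at hd0 ⊢
    nlinarith [mul_nonneg (mul_nonneg (sq_nonneg k) hR0) (sq_nonneg t)]
  · have i1 := hQ.1.integrable_sq
    have i2 := h.hP.1.integrable_sq
    simp only [ip, ← pow_two]
    rw [← integral_const_mul, ← integral_sub i1 i2,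
      ← integral_sub (f := fun x => _ - P x ^ 2) (i1.sub i2) (hS.const_mul _)]
    rw [← Real.norm_eq_abs]
    refine (norm_integral_le_of_norm_le (hR2.const_mul (5 * k ^ 2 * t ^ 2)) ?_).trans ?_
    · filter_upwards [h.sq, hk] with x h1 h2
      have h3 : (t * φ x) ^ 2 ≤ k ^ 2 * t ^ 2 := by
        rw [mul_pow, mul_comm]
        exact mul_le_mul_of_nonneg_right (sq_le_sq' (abs_le.1 h2).1 (abs_le.1 h2).2) (sq_nonneg t)
      refine (rot_mass (P x) (b x) (t * φ x)).trans_eq' ?_ |>.trans ?_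
      · rw [Real.norm_eq_abs]
        ring_nf
      · rw [h1]
        nlinarith [mul_le_mul_of_nonneg_right h3 (sq_nonneg (R x))]
    · rw [integral_const_mul]
      nlinarith [mul_nonneg (mul_nonneg (sq_nonneg M) hd0) (sq_nonneg t)]

/-- Recipe: `KP.rot` gives `0 ≤ t A + C' t²` for all real `t`, `A` the left-hand side. -/
theorem KP.el (h : KP R P b) {M : ℝ} (hM : ∀ᵐ x : X, |R x| ≤ M) {δ : ℝ}
    (hmin : ∀ Q c, KP R Q c → En P b - δ * (ip Q Q - ip P P) ≤ En Q c) (hφ : H1 eX φ)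
    (hk : ∃ k : ℝ, ∀ᵐ x : X, |φ x| ≤ k) (ho : ∀ᵐ x : X, φ (rf x) = -φ x) :
    (∫ x, ∑ i, J P b i x * wd (eX i) φ x) + 2 * δ * ∫ x, P x * b x * φ x = 0 := by
  obtain ⟨k, hk⟩ := hk
  obtain ⟨C, hC⟩ := h.rot hM hφ hk ho
  set A := ∫ x, ∑ i, J P b i x * wd (eX i) φ x
  set S := ∫ x, P x * b x * φ x
  have key : ∀ t : ℝ, 0 ≤ t * (A + 2 * δ * S) + (|C| + |δ| * |C|) * t ^ 2 := fun t => by
    obtain ⟨Q, c, h1, h2, h3⟩ := hC t
    have h4 := hmin Q c h1
    have h5 : C * t ^ 2 ≤ |C| * t ^ 2 := mul_le_mul_of_nonneg_right (le_abs_self C) (sq_nonneg t)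
    have h6 : δ * (ip Q Q - ip P P - 2 * t * S) ≤ |δ| * (|C| * t ^ 2) :=
      (le_abs_self _).trans ((abs_mul _ _).trans_le
        (mul_le_mul_of_nonneg_left (h3.trans h5) (abs_nonneg δ)))
    linarith
  set B := |C| + |δ| * |C|
  have hB : 0 ≤ B := by positivity
  have h1 := key (-(A + 2 * δ * S) / (B + 1))
  set a := A + 2 * δ * S
  have h2 : -a / (B + 1) * a + B * (-a / (B + 1)) ^ 2 = -(a / (B + 1)) ^ 2 := by
    field_simp
    ring
  rw [h2] at h1
  have h3 : a / (B + 1) = 0 := pow_eq_zero_iff two_ne_zero |>.1 (le_antisymm (by linarith) (sq_nonneg _))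
  exact (div_eq_zero_iff.1 h3).resolve_right (by positivity)

end Crest.Agent.R335
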