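/-
R335/CE/Trial: trial pairs and the multiplier
Skeleton by helper18 (block CE of row 335); keep the statements unchanged, add any helper lemmas
you like.
-/
import Crest.Agent.R335.CE.Mix

set_option autoImplicit false
set_option linter.unusedSectionVars false
set_option linter.unusedVariables false
set_option linter.unusedSimpArgs false

noncomputable section

namespace Crest.Agent.R335

open MeasureTheory Set Filter Topology Metric
open scoped ENNReal

variable {R P b f : X → ℝ}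

/-- Recipe: for `ip P1 P1 < a < ip P2 P2` (`a = ip P P`) mix with the weight that gives mass `a`
(`KP.mix2`): `(En P b - En P1 b1) / (a - ip P1 P1) ≤ (En P2 b2 - En P b) / (ip P2 P2 - a)`;
`-δ` is the supremum of the left-hand sides. -/
theorem KP.mult (h : KP R P b) (hmin : ∀ P' b', KP R P' b' → ip P' P' = ip P P → En P b ≤ En P' b')
    (h1 : ∃ P1 b1, KP R P1 b1 ∧ ip P1 P1 < ip P P) (h2 : ∃ P2 b2, KP R P2 b2 ∧ ip P P < ip P2 P2) :
    ∃ δ : ℝ, ∀ Q c, KP R Q c → En P b - δ * (ip Q Q - ip P P) ≤ En Q c := by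
  have key : ∀ P1 b1 P2 b2, KP R P1 b1 → ip P1 P1 < ip P P → KP R P2 b2 → ip P P < ip P2 P2 →
      (En P b - En P1 b1) / (ip P P - ip P1 P1) ≤ (En P2 b2 - En P b) / (ip P2 P2 - ip P P) := by
    intro P1 b1 P2 b2 k1 l1 k2 l2
    have hd : 0 < ip P2 P2 - ip P1 P1 := by linarith
    obtain ⟨Q, c, q1, q2, q3⟩ := k1.mix2 k2 (t := (ip P2 P2 - ip P P) / (ip P2 P2 - ip P1 P1))
      (div_nonneg (by linarith) hd.le) ((div_le_one hd).2 (by linarith))
    have q4 := (hmin Q c q1 (by rw [q2]; field_simp; ring)).trans q3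
    have q5 := mul_le_mul_of_nonneg_right q4 hd.le
    rw [add_mul, mul_right_comm, div_mul_cancel₀ _ hd.ne', mul_right_comm, sub_mul _ _ (_ - _),
      div_mul_cancel₀ _ hd.ne'] at q5
    rw [div_le_div_iff₀ (by linarith) (by linarith)]
    linarith
  set T : Set ℝ := {y | ∃ P1 b1, KP R P1 b1 ∧ ip P1 P1 < ip P P ∧
    (En P b - En P1 b1) / (ip P P - ip P1 P1) = y}
  have hne : T.Nonempty := by
    obtain ⟨P1, b1, k1, l1⟩ := h1
    exact ⟨_, P1, b1, k1, l1, rfl⟩
  have hb : BddAbove T := by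
    obtain ⟨P2, b2, k2, l2⟩ := h2
    exact ⟨_, by rintro _ ⟨P1, b1, k1, l1, rfl⟩; exact key _ _ _ _ k1 l1 k2 l2⟩
  refine ⟨-sSup T, fun Q c hQ => ?_⟩
  rcases lt_trichotomy (ip Q Q) (ip P P) with l | l | l
  · have := le_csSup hb ⟨Q, c, hQ, l, rfl⟩
    rw [div_le_iff₀ (by linarith)] at this
    linarith
  · simpa [l] using hmin Q c hQ l
  · have : sSup T ≤ (En Q c - En P b) / (ip Q Q - ip P P) :=
      csSup_le hne (by rintro _ ⟨P1, b1, k1, l1, rfl⟩; exact key _ _ _ _ k1 l1 hQ l)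
    rw [le_div_iff₀ (by linarith)] at this
    linarith

theorem KP.triv (hR : H1 eX R) (he : ∀ᵐ x : X, R (rf x) = R x) :
    KP R R (fun _ => 0) ∧ En R (fun _ => 0) = dir eX R R / 2 := by
  have h0 : H1 eX fun _ : X => (0 : ℝ) := by simpa using hR.const_mul 0
  refine ⟨⟨hR, h0, he, by simp, by simp⟩, ?_⟩
  have : dir eX (fun _ : X => (0 : ℝ)) (fun _ => 0) = 0 := by
    simpa using hR.hl.dir_const_mul_left 0 fun _ => 0
  rw [En, this, add_zero]

/-- `HL.mul_contDiff`, `sum_fderiv_sq`. -/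
theorem H1.dir_mul_le (h : H1 eX f) {χ : X → ℝ} (hχ : ContDiff ℝ 1 χ) (h1 : ∀ x, |χ x| ≤ 1) {L : ℝ}
    (h2 : ∀ x, ‖fderiv ℝ χ x‖ ≤ L) :
    dir eX (fun x => χ x * f x) (fun x => χ x * f x) ≤ 2 * dir eX f f + 2 * L ^ 2 * ip f f := by
  have hm : H1 eX fun x => χ x * f x := h.mul_contDiff hχ (M := max 1 L)
    (fun x => (h1 x).trans (le_max_left _ _)) fun x => (h2 x).trans (le_max_right _ _)
  have i1 := (h.integrable_dot h).const_mul 2
  have i2 := h.1.integrable_sq.const_mul (2 * L ^ 2)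
  simp only [dir, ip, ← pow_two]
  rw [← integral_const_mul, ← integral_const_mul, ← integral_add i1 i2]
  refine integral_mono_ae (hm.integrable_dot hm) (i1.add i2) ?_
  filter_upwards [ae_all_iff.2 (h.hl.mul_contDiff hχ).2] with x hx
  have a1 : χ x ^ 2 ≤ 1 := (sq_le_one_iff_abs_le_one _).2 (h1 x)
  have a2 : ∑ i, fderiv ℝ χ x (eX i) ^ 2 ≤ L ^ 2 :=
    (sum_fderiv_sq χ x).trans_le (pow_le_pow_left₀ (norm_nonneg _) (h2 x) 2)
  have a3 : dot eX (fun x => χ x * f x) (fun x => χ x * f x) x ≤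
      ∑ i, (2 * (wd (eX i) f x * wd (eX i) f x) + 2 * f x ^ 2 * fderiv ℝ χ x (eX i) ^ 2) :=
    Finset.sum_le_sum fun i _ => by
      rw [hx i]
      nlinarith [sq_nonneg (χ x * wd (eX i) f x - fderiv ℝ χ x (eX i) * f x),
        mul_le_mul_of_nonneg_right a1 (sq_nonneg (wd (eX i) f x))]
  rw [Finset.sum_add_distrib, ← Finset.mul_sum, ← Finset.mul_sum] at a3
  have a4 := mul_le_mul_of_nonneg_left a2 (sq_nonneg (f x))
  simp only [dot] at a3 ⊢
  linarith

theorem norm_fderiv_coord {Φ Φ' : ℝ → ℝ} (h : ∀ y, HasDerivAt Φ (Φ' y) y) {L : ℝ}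
    (hL : ∀ y, |Φ' y| ≤ L) (x : X) : ‖fderiv ℝ (fun x : X => Φ (x 2)) x‖ ≤ L := by
  have h1 : HasFDerivAt (fun x : X => Φ (x 2))
      (Φ' (x 2) • (EuclideanSpace.proj (2 : Fin 3) : X →L[ℝ] ℝ)) x :=
    (h (x 2)).comp_hasFDerivAt x (EuclideanSpace.proj (2 : Fin 3) : X →L[ℝ] ℝ).hasFDerivAt
  rw [h1.fderiv]
  refine ContinuousLinearMap.opNorm_le_bound _ ((abs_nonneg _).trans (hL 0)) fun v => ?_
  rw [smul_apply, norm_smul]
  exact mul_le_mul (hL _) (PiLp.norm_apply_le v 2) (norm_nonneg _) ((abs_nonneg _).trans (hL 0))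

/-- Recipe: `P1 = cos (arctan (x 2 / t)) R`, `b1 = sin (arctan (x 2 / t)) R` (`H1.mul_contDiff`,
gradients bounded by `1/t`, `H1.dir_mul_le`); `cos² arctan y = 1 / (1 + y²)` is at most `1`, and at
most `1/5` for `|x 2| ≥ 2t`; `slab_small` with `2t ≤ 1`, `C (2t) (3 + |B|) ≤ 1/2`. -/
theorem exists_trial (B : ℝ) : ∃ B' : ℝ, ∀ R : X → ℝ, H1 eX R → (∀ᵐ x : X, R (rf x) = R x) →
    ip R R = 3 → dir eX R R ≤ B → ∃ P1 b1, KP R P1 b1 ∧ ip P1 P1 ≤ 3 / 2 ∧ En P1 b1 ≤ B' := by
  obtain ⟨C, hC, hs⟩ := slab_small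
  have hB := abs_nonneg B
  set t : ℝ := min (1 / 2) (1 / (4 * C * (3 + |B|))) with ht
  have t0 : 0 < t := lt_min one_half_pos (by positivity)
  have t1 : t ≤ 1 / 2 := min_le_left _ _
  have t2 : t * (4 * C * (3 + |B|)) ≤ 1 := (le_div_iff₀ (by positivity)).1 (min_le_right _ _)
  refine ⟨2 * B + 2 * (1 / t) ^ 2 * 3, fun R hR he hn hd => ?_⟩
  have da : ∀ y : ℝ, HasDerivAt (fun y => Real.arctan (y / t)) (1 / (1 + (y / t) ^ 2) * (1 / t)) y :=
    fun y => ((hasDerivAt_id y).div_const t).arctan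
  have db : ∀ a y : ℝ, |a| ≤ 1 → |a * (1 / (1 + (y / t) ^ 2) * (1 / t))| ≤ 1 / t := fun a y ha => by
    rw [abs_mul, abs_of_nonneg (a := _ * _) (by positivity)]
    refine (mul_le_of_le_one_left (by positivity) ha).trans
      (mul_le_of_le_one_left (by positivity) ((div_le_one (by positivity)).2 ?_))
    nlinarith [sq_nonneg (y / t)]
  have ca : ContDiff ℝ 1 fun x : X => Real.arctan (x 2 / t) :=
    Real.contDiff_arctan.comp ((EuclideanSpace.proj (2 : Fin 3) : X →L[ℝ] ℝ).contDiff.div_const t)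
  have c1 := fun x => norm_fderiv_coord (fun y => (da y).cos)
    (fun y => db _ y (by rw [abs_neg]; exact Real.abs_sin_le_one _)) x
  have s1 := fun x => norm_fderiv_coord (fun y => (da y).sin)
    (fun y => db _ y (Real.abs_cos_le_one _)) x
  have hP := hR.mul_contDiff ca.cos (M := max 1 (1 / t))
    (fun x => (Real.abs_cos_le_one _).trans (le_max_left _ _)) fun x => (c1 x).trans (le_max_right _ _)
  have hb := hR.mul_contDiff ca.sin (M := max 1 (1 / t))
    (fun x => (Real.abs_sin_le_one _).trans (le_max_left _ _)) fun x => (s1 x).trans (le_max_right _ _)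
  have e1 := hR.dir_mul_le ca.cos (fun x => Real.abs_cos_le_one _) c1
  have e2 := hR.dir_mul_le ca.sin (fun x => Real.abs_sin_le_one _) s1
  refine ⟨_, _, ⟨hP, hb, he.mono fun x hx => ?_, he.mono fun x hx => ?_, .of_forall fun x => ?_⟩,
    ?_, ?_⟩
  · simp only [hx, rf_two, neg_div, Real.arctan_neg, Real.cos_neg]
  · simp only [hx, rf_two, neg_div, Real.arctan_neg, Real.sin_neg, neg_mul]
  · linear_combination R x ^ 2 * Real.sin_sq_add_cos_sq (Real.arctan (x 2 / t))
  · have hS : MeasurableSet {x : X | |x 2| < 2 * t} :=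
      (isOpen_lt (by fun_prop) continuous_const).measurableSet
    have i1 := hR.1.integrable_sq.indicator hS
    have i2 := hR.1.integrable_sq.const_mul (1 / 5)
    have a1 := hs R hR (2 * t) (by positivity) (by linarith)
    have a2 := integral_mono hP.1.integrable_sq (i1.add i2) fun x => by
      simp only [Pi.add_apply, mul_pow, Real.cos_sq_arctan]
      by_cases hx : x ∈ {x : X | |x 2| < 2 * t}
      · rw [indicator_of_mem hx]
        have : 1 / (1 + (x 2 / t) ^ 2) ≤ 1 :=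
          (div_le_one (by positivity)).2 (by nlinarith [sq_nonneg (x 2 / t)])
        nlinarith [sq_nonneg (R x)]
      · rw [indicator_of_notMem hx, zero_add]
        refine mul_le_mul_of_nonneg_right (one_div_le_one_div_of_le (by norm_num) ?_) (sq_nonneg _)
        have h2 : 2 ≤ |x 2 / t| := by
          rw [abs_div, abs_of_pos t0, le_div_iff₀ t0]
          exact not_lt.1 hx
        nlinarith [sq_abs (x 2 / t)]
    rw [integral_add' i1 i2, integral_indicator hS, integral_const_mul] at a2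
    simp only [ip, ← pow_two] at hn a1 ⊢
    rw [hn] at a1 a2
    have a3 : C * (2 * t) * (3 + dir eX R R) ≤ C * (2 * t) * (3 + |B|) :=
      mul_le_mul_of_nonneg_left (by linarith [le_abs_self B]) (by positivity)
    linarith
  · rw [hn] at e1 e2
    rw [En]
    linarith

end Crest.Agent.R335
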