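/-
R335/CE/Main: block CE (see R335/Notes)
Skeleton by helper18 (block CE of row 335); keep the statements unchanged, add any helper lemmas
you like.
-/
import Crest.Agent.R335.CE.Exist
import Crest.Agent.R335.CE.Rot
import Crest.Agent.R335.CE.Trial
import Crest.Agent.R335.CE.Close
import Crest.Agent.R335.CE.Delta

set_option autoImplicit false
set_option linter.unusedSectionVars false
set_option linter.unusedVariables false
set_option linter.unusedSimpArgs false

noncomputable section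

namespace Crest.Agent.R335

open MeasureTheory Set Filter Topology Metric
open scoped ENNReal

theorem KP.qf_add {R P b : X → ℝ} (h : KP R P b) (D : ℝ) :
    qf eX (V D) P P + qf eX (V D) b b = En P b + ∫ x, V D x * R x ^ 2 := by
  have h1 : ∫ x, V D x * R x ^ 2 = (∫ x, V D x * P x * P x) + ∫ x, V D x * b x * b x := by
    rw [← integral_add ((pot_V D).integrable h.hP h.hP.1) ((pot_V D).integrable h.hb h.hb.1)]
    refine integral_congr_ae (h.sq.mono fun x hx => ?_)
    simp only [← hx]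
    ring
  simp only [qf, En, h1]
  ring

theorem stCert : StCert := by
  intro c C D g u eg eu ob η3 hη3
  obtain ⟨B1, htr⟩ := exists_trial 196
  set B := 2 * |B1| + 98 with hB
  have hB0 : 0 < B := by positivity
  obtain ⟨ε, hε, hdel⟩ := ob.delta B hη3
  have hc := ob.c_pos
  set ε' := min ε (η3 ^ 2) with hε'
  have hε'0 : 0 < ε' := lt_min hε (by positivity)
  refine ⟨min 1 (ε' * c / (132 * (1 + B))), lt_min one_pos (by positivity), ?_⟩
  intro C1 l M η m2 de f hη ch
  have hη0 : 0 < η := ch.l_pos.trans_le ch.l_le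
  have hη1 : η ≤ 1 := hη.trans (min_le_left _ _)
  have hη2 : 132 * ((1 + B) * η) / c ≤ ε' := by
    have := hη.trans (min_le_right _ _)
    rw [le_div_iff₀ (by positivity)] at this
    rw [div_le_iff₀ hc]
    linarith
  have hM : ∀ᵐ x : X, |f.R x| ≤ M := by
    filter_upwards [ch.bd] with x hx
    rw [abs_of_nonneg (ch.nn x).1]
    have : ex (9 / 10) x ≤ 1 := Real.exp_le_one_iff.2 (by nlinarith [norm_nonneg x])
    nlinarith [ch.M_ge]
  have hRe : ∀ᵐ x : X, f.R (rf x) = f.R x := ch.par.mono fun x hx => hx.1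
  obtain ⟨o1, o2⟩ := ch.hO.oddExt_even ch.strip (ch.par.mono fun x hx => hx.2.2.1)
  have q0 : KP f.R f.Ev (oddExt f.O) :=
    ⟨ch.hEv, (ch.hO.oddExt ch.strip).1, ch.par.mono fun x hx => hx.2.1, .of_forall (oddExt_rf _), by
      filter_upwards [o1, ch.pyth] with x h1 h2
      rw [h1, h2.1]⟩
  have e0 : En f.Ev (oddExt f.O) + ∫ x, V D x * f.R x ^ 2 ≤ 2 * eg + eu + η := by
    rw [En, o2]
    exact ch.energy
  have g1 := abs_le.1 ob.eg_near
  have g2 := abs_le.1 ob.eu_near
  obtain ⟨p2, e2⟩ := KP.triv ch.hR hRe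
  have hdR : dir eX f.R f.R ≤ 196 := by
    have a1 : dir eX f.R f.R ≤ dir eX f.Ev f.Ev + dir eX f.O f.O := by
      have : f.R =ᵐ[volume] fun x => √(f.Ev x ^ 2 + f.O x ^ 2) := ch.pyth.mono fun x hx => by
        simp only [← hx.1, Real.sqrt_sq (ch.nn x).1]
      rw [dir_congr this this]
      exact (ch.hEv.norm2 ch.hO).2
    have a2 := V_coercive D ch.hR
    have a3 : ∫ x, V D x * f.R x * f.R x = ∫ x, V D x * f.R x ^ 2 := by
      simp only [sq, mul_assoc]
    have a4 := ch.energy
    rw [qf, a3, ch.mass] at a2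
    linarith
  obtain ⟨P1, b1, p1, a1, e1⟩ := htr f.R ch.hR hRe ch.mass hdR
  have hne : ∃ P b, KP f.R P b ∧ ip P P = 2 := by
    obtain ⟨Q, q, k1, k2, -⟩ := p1.mix2 p2 (t := 1 / (3 - ip P1 P1))
      (div_nonneg zero_le_one (by linarith)) ((div_le_one (by linarith)).2 (by linarith))
    refine ⟨Q, q, k1, ?_⟩
    have : 3 - ip P1 P1 ≠ 0 := by linarith
    rw [k2, ch.mass]
    field_simp
    ring
  obtain ⟨P, b, kp, m1, m2', s1, s2, n1, n2, nP, hmin⟩ := KP.exists_min ch.hR.1 hM hne
  obtain ⟨δ, hδ⟩ := kp.mult (by rw [nP]; exact hmin) ⟨P1, b1, p1, by linarith⟩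
    ⟨_, _, p2, by rw [nP, ch.mass]; norm_num⟩
  have ce : Cert δ P b f.R :=
    ⟨m1, m2', kp.hP, kp.hb, s1, s2, n1, n2, kp.sq, nP, by linarith [kp.ip_add, ch.mass],
      fun φ h1 h2 h3 => kp.el hM hδ h1 h2 h3⟩
  have hδB : |δ| ≤ B := by
    have b1' := hδ _ _ p1
    have b2' := hδ _ _ p2
    have b3 := En_nonneg P b
    have b4 := le_abs_self B1
    have b5 := abs_nonneg B1
    rw [nP] at b1' b2'
    rw [ch.mass, e2] at b2'
    refine abs_le.2 ⟨by linarith, ?_⟩
    rcases le_total δ 0 with h | h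
    · linarith
    · nlinarith
  have hE : qf eX (V D) P P + qf eX (V D) b b ≤ 2 * eg + eu + (1 + B) * η := by
    have b1' := hδ _ _ q0
    have b2 : δ * (ip f.Ev f.Ev - 2) ≤ B * η :=
      (le_abs_self _).trans ((abs_mul _ _).trans_le
        (mul_le_mul hδB ch.massE (abs_nonneg _) hB0.le))
    rw [nP] at b1'
    rw [kp.qf_add]
    linarith
  obtain ⟨c1, c2, c3, c4⟩ := ob.close ce hE
  have hε1 : ε' ≤ ε := min_le_left _ _
  exact ⟨P, b, δ, ce, c1.trans (hη2.trans (min_le_right _ _)),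
    hdel δ P b f.R ce hδB (by linarith) (by linarith) (by linarith) (by linarith)⟩

end Crest.Agent.R335
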